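import Vale.Agent.P157.Low.Stein
import Mathlib

/-!
Gibbs averages over a finite set in a Gaussian field: marginals, tangents and second differences of
the log-sum, and integration by parts.
-/

namespace Vale.Agent.P166F.Gibbs

set_option linter.unusedSectionVars false

open MeasureTheory ProbabilityTheory
open scoped RealInnerProductSpace

variable {X : Type} [Fintype X] [Nonempty X]

/-- The sum of the weights. -/
noncomputable def zsum (h : X → ℝ) : ℝ := ∑ x, Real.exp (h x)

/-- The weight of a tuple of replicas. -/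
noncomputable def tw {n : ℕ} (h : X → ℝ) (x : Fin n → X) : ℝ :=
  (∏ l, Real.exp (h (x l))) / zsum h ^ n

/-- The weight of one configuration. -/
noncomputable def pw (h : X → ℝ) (a : X) : ℝ := Real.exp (h a) / zsum h

/-- The replica average. -/
noncomputable def gav {n : ℕ} (h : X → ℝ) (Θ : (Fin n → X) → ℝ) : ℝ := ∑ x, tw h x * Θ x

/-- The mean of one configuration. -/
noncomputable def gmean (h f : X → ℝ) : ℝ := ∑ a, pw h a * f a

/-- The variance of one configuration. -/
noncomputable def gvar (h f : X → ℝ) : ℝ := ∑ a, pw h a * (f a - gmean h f) ^ 2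

lemma zsum_pos (h : X → ℝ) : 0 < zsum h :=
  Finset.sum_pos (fun _ _ => Real.exp_pos _) Finset.univ_nonempty

lemma pw_pos (h : X → ℝ) (a : X) : 0 < pw h a := div_pos (Real.exp_pos _) (zsum_pos h)

lemma sum_pw (h : X → ℝ) : ∑ a, pw h a = 1 := by
  simp only [pw, ← Finset.sum_div]
  exact div_self (zsum_pos h).ne'

lemma pw_le_one (h : X → ℝ) (a : X) : pw h a ≤ 1 :=
  (sum_pw h) ▸ Finset.single_le_sum (fun b _ => (pw_pos h b).le) (Finset.mem_univ a)

lemma tw_eq {n : ℕ} (h : X → ℝ) (x : Fin n → X) : tw h x = ∏ l, pw h (x l) := by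
  simp [tw, pw, Finset.prod_div_distrib]

lemma tw_nonneg {n : ℕ} (h : X → ℝ) (x : Fin n → X) : 0 ≤ tw h x :=
  tw_eq h x ▸ Finset.prod_nonneg fun l _ => (pw_pos h _).le

lemma tw_le_one {n : ℕ} (h : X → ℝ) (x : Fin n → X) : tw h x ≤ 1 :=
  tw_eq h x ▸ Finset.prod_le_one (fun l _ => (pw_pos h _).le) fun l _ => pw_le_one h _

lemma sum_tw (n : ℕ) (h : X → ℝ) : ∑ x : Fin n → X, tw h x = 1 := by
  simp only [tw_eq]
  rw [← Fintype.prod_sum fun _ : Fin n => fun a => pw h a]
  simp [sum_pw]

lemma abs_gav_le {n : ℕ} (h : X → ℝ) {Θ : (Fin n → X) → ℝ} {B : ℝ} (hB : ∀ x, |Θ x| ≤ B) :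
    |gav h Θ| ≤ B := by
  refine (Finset.abs_sum_le_sum_abs _ _).trans ?_
  calc ∑ x, |tw h x * Θ x| ≤ ∑ x, tw h x * B := Finset.sum_le_sum fun x _ => by
        rw [abs_mul, abs_of_nonneg (tw_nonneg h x)]
        exact mul_le_mul_of_nonneg_left (hB x) (tw_nonneg h x)
    _ = B := by rw [← Finset.sum_mul, sum_tw, one_mul]

lemma gav_add {n : ℕ} (h : X → ℝ) (Θ Θ' : (Fin n → X) → ℝ) :
    gav h (fun x => Θ x + Θ' x) = gav h Θ + gav h Θ' := by
  simp only [gav, mul_add, Finset.sum_add_distrib]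

lemma gav_sub {n : ℕ} (h : X → ℝ) (Θ Θ' : (Fin n → X) → ℝ) :
    gav h (fun x => Θ x - Θ' x) = gav h Θ - gav h Θ' := by
  simp only [gav, mul_sub, Finset.sum_sub_distrib]

lemma gav_mul_const {n : ℕ} (h : X → ℝ) (Θ : (Fin n → X) → ℝ) (c : ℝ) :
    gav h (fun x => c * Θ x) = c * gav h Θ := by
  simp only [gav, mul_left_comm _ c, ← Finset.mul_sum]

lemma gav_const {n : ℕ} (h : X → ℝ) (c : ℝ) : gav h (fun _ : Fin n → X => c) = c := by
  rw [gav, ← Finset.sum_mul, sum_tw, one_mul]

lemma gav_mono {n : ℕ} (h : X → ℝ) {Θ Θ' : (Fin n → X) → ℝ} (hle : ∀ x, Θ x ≤ Θ' x) :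
    gav h Θ ≤ gav h Θ' :=
  Finset.sum_le_sum fun x _ => mul_le_mul_of_nonneg_left (hle x) (tw_nonneg h x)

/-- One replica of a tuple has the law of one configuration. -/
lemma gav_marginal {n : ℕ} (h : X → ℝ) (l : Fin n) (f : X → ℝ) :
    gav h (fun x : Fin n → X => f (x l)) = gmean h f := by
  classical
  have e : ∀ x : Fin n → X, tw h x * f (x l) =
      ∏ k, pw h (x k) * (if k = l then f (x k) else 1) := fun x => by
    rw [Finset.prod_mul_distrib, ← tw_eq, Finset.prod_ite_eq' Finset.univ l fun k => f (x k)]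
    simp
  simp only [gav, e]
  rw [← Fintype.prod_sum fun k : Fin n => fun a => pw h a * if k = l then f a else 1]
  rw [Finset.prod_eq_single l]
  · simp [gmean]
  · intro k _ hk
    simp [hk, sum_pw]
  · simp

/-- A further replica. -/
lemma gav_succ {n : ℕ} (h : X → ℝ) (Θ : (Fin (n + 1) → X) → ℝ) :
    gav h Θ = gav h fun x : Fin n → X => ∑ a, pw h a * Θ (Fin.snoc x a) := by
  simp only [gav, Finset.mul_sum, tw_eq]
  rw [Finset.sum_comm, ← Fintype.sum_prod_type']
  refine (Fintype.sum_equiv (Fin.snocEquiv fun _ => X) _ _ fun p => ?_).symm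
  simp only [Fin.snocEquiv, Equiv.coe_fn_mk, Fin.prod_univ_castSucc, Fin.snoc_castSucc, Fin.snoc_last]
  ring

lemma gvar_nonneg (h f : X → ℝ) : 0 ≤ gvar h f :=
  Finset.sum_nonneg fun a _ => mul_nonneg (pw_pos h a).le (sq_nonneg _)

lemma gvar_le (h f : X → ℝ) {M : ℝ} (hM : ∀ a, |f a| ≤ M) : gvar h f ≤ 4 * M ^ 2 := by
  have hm : |gmean h f| ≤ M := by
    refine (Finset.abs_sum_le_sum_abs _ _).trans ?_
    calc ∑ a, |pw h a * f a| ≤ ∑ a, pw h a * M := Finset.sum_le_sum fun a _ => by
          rw [abs_mul, abs_of_pos (pw_pos h a)]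
          exact mul_le_mul_of_nonneg_left (hM a) (pw_pos h a).le
      _ = M := by rw [← Finset.sum_mul, sum_pw, one_mul]
  calc gvar h f ≤ ∑ a, pw h a * (4 * M ^ 2) := Finset.sum_le_sum fun a _ => by
        refine mul_le_mul_of_nonneg_left ?_ (pw_pos h a).le
        have := (abs_sub (f a) (gmean h f)).trans (add_le_add (hM a) hm)
        rw [← sq_abs]
        nlinarith [abs_nonneg (f a - gmean h f)]
    _ = 4 * M ^ 2 := by rw [← Finset.sum_mul, sum_pw, one_mul]

lemma zsum_tilt (h f : X → ℝ) (t : ℝ) :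
    zsum (fun a => h a + t * f a) = zsum h * ∑ a, pw h a * Real.exp (t * f a) := by
  simp only [zsum, Finset.mul_sum, pw, Real.exp_add]
  refine Finset.sum_congr rfl fun a _ => ?_
  field_simp [(zsum_pos h).ne']

/-- The log-sum lies above its tangent. -/
lemma tangent_le (h f : X → ℝ) (t : ℝ) :
    t * gmean h f ≤ Real.log (zsum fun a => h a + t * f a) - Real.log (zsum h) := by
  have h1 : Real.exp (t * gmean h f) ≤ ∑ a, pw h a * Real.exp (t * f a) := by
    have := convexOn_exp.map_sum_le (t := Finset.univ) (w := pw h) (p := fun a => t * f a)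
      (fun a _ => (pw_pos h a).le) (sum_pw h) (fun a _ => Set.mem_univ _)
    simp only [smul_eq_mul, mul_left_comm _ t] at this
    rwa [gmean, Finset.mul_sum]
  rw [zsum_tilt, Real.log_mul (zsum_pos h).ne' ((Real.exp_pos _).trans_le h1).ne', add_sub_cancel_left,
    Real.le_log_iff_exp_le ((Real.exp_pos _).trans_le h1)]
  exact h1

lemma one_add_le_cosh (x : ℝ) : 1 + x ^ 2 / 2 ≤ Real.cosh x := by
  have key : ∀ y : ℝ, 0 ≤ y → 1 + y ^ 2 / 2 ≤ Real.cosh y := fun y hy => by
    have h1 := Real.self_le_sinh_iff.2 (by linarith : 0 ≤ y / 2)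
    have e : Real.cosh y = 1 + 2 * Real.sinh (y / 2) ^ 2 := by
      conv_lhs => rw [show y = 2 * (y / 2) by ring, Real.cosh_two_mul, Real.cosh_sq]
      ring
    rw [e]
    nlinarith
  simpa [Real.cosh_abs] using key |x| (abs_nonneg x)

/-- The second difference dominates the variance. -/
lemma second_diff_ge (h f : X → ℝ) (t : ℝ) :
    t ^ 2 * gvar h f / (1 + t ^ 2 * gvar h f) ≤
      Real.log (zsum fun a => h a + t * f a) + Real.log (zsum fun a => h a + -t * f a) -
        2 * Real.log (zsum h) := by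
  set V := gvar h f with hV
  set m := gmean h f
  have hz : ∀ r : ℝ, 0 < ∑ a, pw h a * Real.exp (r * f a) := fun r =>
    Finset.sum_pos (fun a _ => mul_pos (pw_pos h a) (Real.exp_pos _)) Finset.univ_nonempty
  have e2 : ∑ a, ∑ b, pw h a * pw h b * (f a - f b) ^ 2 = 2 * V := by
    have i1 : ∀ a b, pw h a * pw h b * (f a - f b) ^ 2 = pw h b * (pw h a * (f a - m) ^ 2) +
        pw h a * (pw h b * (f b - m) ^ 2) - 2 * ((pw h a * (f a - m)) * (pw h b * (f b - m))) :=
      fun a b => by ring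
    simp only [i1, Finset.sum_sub_distrib, Finset.sum_add_distrib, ← Finset.mul_sum, ← Finset.sum_mul,
      sum_pw, one_mul]
    have i2 : ∑ a, pw h a * (f a - m) = 0 := by
      simp only [mul_sub, Finset.sum_sub_distrib, ← Finset.sum_mul, sum_pw, one_mul]
      exact sub_self _
    rw [i2, hV, gvar]
    ring
  have hprod : 1 + t ^ 2 * V ≤
      (∑ a, pw h a * Real.exp (t * f a)) * ∑ a, pw h a * Real.exp (-t * f a) := by
    have e1 : (∑ a, pw h a * Real.exp (t * f a)) * ∑ a, pw h a * Real.exp (-t * f a) =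
        ∑ a, ∑ b, pw h a * pw h b * Real.exp (t * (f a - f b)) := by
      rw [Finset.sum_mul_sum]
      refine Finset.sum_congr rfl fun a _ => Finset.sum_congr rfl fun b _ => ?_
      rw [mul_mul_mul_comm, ← Real.exp_add]
      ring_nf
    have e3 : ∑ a, ∑ b, pw h a * pw h b * Real.exp (t * (f a - f b)) =
        ∑ a, ∑ b, pw h a * pw h b * Real.cosh (t * (f a - f b)) := by
      have hs : ∑ a, ∑ b, pw h a * pw h b * Real.exp (t * (f a - f b)) =
          ∑ a, ∑ b, pw h a * pw h b * Real.exp (-(t * (f a - f b))) := by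
        rw [Finset.sum_comm]
        refine Finset.sum_congr rfl fun a _ => Finset.sum_congr rfl fun b _ => ?_
        rw [mul_comm (pw h b)]
        ring_nf
      have hc : ∀ a b, pw h a * pw h b * Real.cosh (t * (f a - f b)) =
          (pw h a * pw h b * Real.exp (t * (f a - f b)) +
            pw h a * pw h b * Real.exp (-(t * (f a - f b)))) / 2 := fun a b => by
        rw [Real.cosh_eq]; ring
      simp only [hc, ← Finset.sum_div, Finset.sum_add_distrib, ← hs]
      ring
    rw [e1, e3]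
    calc 1 + t ^ 2 * V
        = (∑ a, pw h a) * (∑ b, pw h b) + t ^ 2 / 2 * ∑ a, ∑ b, pw h a * pw h b * (f a - f b) ^ 2 := by
          rw [sum_pw, e2]; ring
      _ = ∑ a, ∑ b, pw h a * pw h b * (1 + (t * (f a - f b)) ^ 2 / 2) := by
          rw [Finset.sum_mul_sum, Finset.mul_sum, ← Finset.sum_add_distrib]
          refine Finset.sum_congr rfl fun a _ => ?_
          rw [Finset.mul_sum, ← Finset.sum_add_distrib]
          exact Finset.sum_congr rfl fun b _ => by ring
      _ ≤ _ := Finset.sum_le_sum fun a _ => Finset.sum_le_sum fun b _ =>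
          mul_le_mul_of_nonneg_left (one_add_le_cosh _) (mul_pos (pw_pos h a) (pw_pos h b)).le
  have hpos : 0 < 1 + t ^ 2 * V := by
    have := gvar_nonneg h f
    positivity
  rw [zsum_tilt, zsum_tilt, Real.log_mul (zsum_pos h).ne' (hz t).ne',
    Real.log_mul (zsum_pos h).ne' (hz (-t)).ne']
  have h4 : Real.log (1 + t ^ 2 * V) ≤ Real.log (∑ a, pw h a * Real.exp (t * f a)) +
      Real.log (∑ a, pw h a * Real.exp (-t * f a)) := by
    rw [← Real.log_mul (hz t).ne' (hz (-t)).ne']
    exact Real.log_le_log hpos hprod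
  have h5 : t ^ 2 * V / (1 + t ^ 2 * V) ≤ Real.log (1 + t ^ 2 * V) := by
    have := Real.one_sub_inv_le_log_of_pos hpos
    refine le_trans (le_of_eq ?_) this
    field_simp
    ring
  linarith

/-! ### Integration by parts -/

variable {E : Type} [NormedAddCommGroup E] [InnerProductSpace ℝ E] [FiniteDimensional ℝ E]
  [MeasurableSpace E] [BorelSpace E]

/-- The log-weights in a field. -/
noncomputable def inField (b : X → ℝ) (W : X → E) (g : E) (a : X) : ℝ := b a + ⟪g, W a⟫

lemma measurable_tw_field {n : ℕ} (b : X → ℝ) (W : X → E) (x : Fin n → X) :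
    Measurable fun g => tw (inField b W g) x := by
  simp only [tw, zsum, inField]
  fun_prop

lemma measurable_pw_field (b : X → ℝ) (W : X → E) (a : X) :
    Measurable fun g => pw (inField b W g) a := by
  simp only [pw, zsum, inField]
  fun_prop

/-- The derivative of the weight of a tuple along a direction of the field. -/
lemma hasDerivAt_tw {n : ℕ} (b : X → ℝ) (W : X → E) (x : Fin n → X) (v g : E) :
    HasDerivAt (fun t : ℝ => tw (inField b W (g + t • v)) x)
      (tw (inField b W g) x *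
        (∑ l, ⟪v, W (x l)⟫ - n * ∑ a, pw (inField b W g) a * ⟪v, W a⟫)) 0 := by
  have hh : ∀ a, HasDerivAt (fun t : ℝ => inField b W (g + t • v) a) ⟪v, W a⟫ 0 := fun a => by
    simpa [inField, inner_add_left, real_inner_smul_left, add_assoc] using
      (((hasDerivAt_id (0 : ℝ)).mul_const ⟪v, W a⟫).const_add ⟪g, W a⟫).const_add (b a)
  have e : (fun t : ℝ => tw (inField b W (g + t • v)) x) = fun t => Real.exp
      (∑ l, inField b W (g + t • v) (x l) - n * Real.log (zsum (inField b W (g + t • v)))) := funext fun t => by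
    rw [Real.exp_sub, Real.exp_sum, Real.exp_nat_mul, Real.exp_log (zsum_pos _), tw]
  have hz : HasDerivAt (fun t : ℝ => zsum (inField b W (g + t • v)))
      (∑ a, Real.exp (inField b W g a) * ⟪v, W a⟫) 0 := by
    have := HasDerivAt.fun_sum (u := Finset.univ) fun a _ => (hh a).exp
    simpa [zsum] using this
  rw [e]
  have hd := ((HasDerivAt.fun_sum (u := Finset.univ) fun l _ => hh (x l)).fun_sub
    ((hz.log (zsum_pos _).ne').const_mul (n : ℝ))).exp
  simp only [zero_smul, add_zero] at hd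
  refine hd.congr_deriv ?_
  rw [Real.exp_sub, Real.exp_sum, Real.exp_nat_mul, Real.exp_log (zsum_pos _), ← tw]
  congr 2
  rw [Finset.sum_div]
  congr 1
  exact Finset.sum_congr rfl fun a _ => by rw [pw]; ring

lemma sum_pw_inner_le (h : X → ℝ) (W : X → E) {L : ℝ} (hL : ∀ a, ‖W a‖ ≤ L) (v : E) :
    |∑ a, pw h a * ⟪v, W a⟫| ≤ ‖v‖ * L := by
  refine (Finset.abs_sum_le_sum_abs _ _).trans ?_
  calc ∑ a, |pw h a * ⟪v, W a⟫| ≤ ∑ a, pw h a * (‖v‖ * L) := Finset.sum_le_sum fun a _ => by
        rw [abs_mul, abs_of_pos (pw_pos h a)]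
        exact mul_le_mul_of_nonneg_left ((abs_real_inner_le_norm _ _).trans
          (mul_le_mul_of_nonneg_left (hL a) (norm_nonneg v))) (pw_pos h a).le
    _ = ‖v‖ * L := by rw [← Finset.sum_mul, sum_pw, one_mul]

/-- Integration by parts for the weight of a tuple. -/
theorem stein_tw {n : ℕ} (b : X → ℝ) (W : X → E) (x : Fin n → X) (u : E) :
    ∫ g, ⟪g, u⟫ * tw (inField b W g) x ∂stdGaussian E =
      ∫ g, tw (inField b W g) x *
        (∑ l, ⟪u, W (x l)⟫ - n * ∑ a, pw (inField b W g) a * ⟪u, W a⟫) ∂stdGaussian E := by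
  rcases eq_or_ne u 0 with rfl | hu
  · simp
  set v := ‖u‖⁻¹ • u
  have hv : ‖v‖ = 1 := by simp [v, norm_smul, inv_mul_cancel₀ (norm_ne_zero_iff.2 hu)]
  have huv : u = ‖u‖ • v := by simp [v, smul_smul, mul_inv_cancel₀ (norm_ne_zero_iff.2 hu)]
  obtain ⟨L, hL⟩ : ∃ L, ∀ a, ‖W a‖ ≤ L :=
    ⟨∑ a, ‖W a‖, fun a => Finset.single_le_sum (fun b _ => norm_nonneg (W b)) (Finset.mem_univ a)⟩
  have hL0 : 0 ≤ L := (norm_nonneg _).trans (hL (Classical.arbitrary X))
  have key := P157.Low.stein_unit hv (G := fun g => tw (inField b W g) x)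
    (G' := fun g => tw (inField b W g) x *
      (∑ l, ⟪v, W (x l)⟫ - n * ∑ a, pw (inField b W g) a * ⟪v, W a⟫))
    (measurable_tw_field b W x)
    ((measurable_tw_field b W x).mul (measurable_const.sub (measurable_const.mul
      (Finset.measurable_sum _ fun a _ => (measurable_pw_field b W a).mul_const _))))
    (hasDerivAt_tw b W x v) (C := 1 + 2 * n * L)
    (fun g => by
      rw [abs_of_nonneg (tw_nonneg _ _)]
      have : (0 : ℝ) ≤ 2 * n * L := by positivity
      linarith [tw_le_one (inField b W g) x])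
    (fun g => by
      rw [abs_mul, abs_of_nonneg (tw_nonneg _ _)]
      refine (mul_le_of_le_one_left (abs_nonneg _) (tw_le_one _ _)).trans ((abs_sub _ _).trans ?_)
      have h1 : |∑ l, ⟪v, W (x l)⟫| ≤ n * L := by
        refine (Finset.abs_sum_le_sum_abs _ _).trans
          ((Finset.sum_le_card_nsmul _ _ L fun l _ => ?_).trans (le_of_eq (by simp)))
        exact (abs_real_inner_le_norm _ _).trans (by rw [hv, one_mul]; exact hL _)
      have h2 : |(n : ℝ) * ∑ a, pw (inField b W g) a * ⟪v, W a⟫| ≤ n * L := by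
        rw [abs_mul, Nat.abs_cast]
        exact mul_le_mul_of_nonneg_left (by simpa [hv] using sum_pw_inner_le _ W hL v) (Nat.cast_nonneg n)
      linarith)
  rw [huv]
  simp only [real_inner_smul_left, real_inner_smul_right, mul_assoc, ← Finset.mul_sum]
  rw [integral_const_mul, key, ← integral_const_mul]
  refine integral_congr_ae (Filter.Eventually.of_forall fun g => ?_)
  have e : ∀ a, pw (inField b W g) a * (‖u‖ * ⟪v, W a⟫) = ‖u‖ * (pw (inField b W g) a * ⟪v, W a⟫) :=
    fun a => mul_left_comm _ _ _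
  simp only [e, ← Finset.mul_sum]
  ring

/-- Integration by parts for replica averages of the field at one replica. -/
theorem stein_gav {n : ℕ} (b : X → ℝ) (W w : X → E) (Θ : (Fin n → X) → ℝ) (l : Fin n) :
    ∫ g, gav (inField b W g) (fun x => Θ x * ⟪g, w (x l)⟫) ∂stdGaussian E =
      ∫ g, (gav (inField b W g) (fun x => ∑ k, Θ x * ⟪w (x l), W (x k)⟫) -
        n * gav (inField b W g) (fun x : Fin (n + 1) → X =>
          Θ (fun k => x k.castSucc) * ⟪w (x l.castSucc), W (x (Fin.last n))⟫)) ∂stdGaussian E := by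
  obtain ⟨L, hL⟩ : ∃ L, ∀ a, ‖W a‖ ≤ L :=
    ⟨∑ a, ‖W a‖, fun a => Finset.single_le_sum (fun b _ => norm_nonneg (W b)) (Finset.mem_univ a)⟩
  have hbd : ∀ (x : Fin n → X) g, |Θ x * (tw (inField b W g) x * (∑ k, ⟪w (x l), W (x k)⟫ -
      n * ∑ a, pw (inField b W g) a * ⟪w (x l), W a⟫))| ≤
        |Θ x| * (|∑ k, ⟪w (x l), W (x k)⟫| + n * (‖w (x l)‖ * L)) := fun x g => by
    rw [abs_mul, abs_mul, abs_of_nonneg (tw_nonneg _ _)]
    refine mul_le_mul_of_nonneg_left ((mul_le_of_le_one_left (abs_nonneg _) (tw_le_one _ _)).trans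
      ((abs_sub _ _).trans (add_le_add le_rfl ?_))) (abs_nonneg _)
    rw [abs_mul, Nat.abs_cast]
    exact mul_le_mul_of_nonneg_left (sum_pw_inner_le _ W hL _) (Nat.cast_nonneg n)
  have hint : ∀ x : Fin n → X, Integrable (fun g => Θ x * (tw (inField b W g) x *
      (∑ k, ⟪w (x l), W (x k)⟫ - n * ∑ a, pw (inField b W g) a * ⟪w (x l), W a⟫))) (stdGaussian E) :=
    fun x => Integrable.mono' (integrable_const _)
      (((measurable_tw_field b W x).mul (measurable_const.sub (measurable_const.mul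
        (Finset.measurable_sum _ fun a _ => (measurable_pw_field b W a).mul_const _)))).const_mul
          _).aestronglyMeasurable
      (Filter.Eventually.of_forall fun g => (Real.norm_eq_abs _).le.trans (hbd x g))
  have hint2 : ∀ x : Fin n → X, Integrable (fun g => Θ x * (⟪g, w (x l)⟫ * tw (inField b W g) x))
      (stdGaussian E) := fun x => by
    refine Integrable.mono' (((IsGaussian.integrable_id (μ := stdGaussian E)).norm.mul_const
      ‖w (x l)‖).const_mul |Θ x|)
      (((measurable_id.inner measurable_const).mul (measurable_tw_field b W x)).const_mul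
        _).aestronglyMeasurable (Filter.Eventually.of_forall fun g => ?_)
    rw [Real.norm_eq_abs, abs_mul, abs_mul, abs_of_nonneg (tw_nonneg _ _)]
    exact mul_le_mul_of_nonneg_left ((mul_le_of_le_one_right (abs_nonneg _) (tw_le_one _ _)).trans
      (abs_real_inner_le_norm g _)) (abs_nonneg _)
  have e1 : ∀ g, gav (inField b W g) (fun x => Θ x * ⟪g, w (x l)⟫) =
      ∑ x, Θ x * (⟪g, w (x l)⟫ * tw (inField b W g) x) := fun g =>
    Finset.sum_congr rfl fun x _ => by ring
  have e2 : ∀ g, gav (inField b W g) (fun x => ∑ k, Θ x * ⟪w (x l), W (x k)⟫) -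
      n * gav (inField b W g) (fun x : Fin (n + 1) → X =>
        Θ (fun k => x k.castSucc) * ⟪w (x l.castSucc), W (x (Fin.last n))⟫) =
      ∑ x, Θ x * (tw (inField b W g) x * (∑ k, ⟪w (x l), W (x k)⟫ -
        n * ∑ a, pw (inField b W g) a * ⟪w (x l), W a⟫)) := fun g => by
    rw [gav_succ]
    simp only [Fin.snoc_castSucc, Fin.snoc_last, gav]
    rw [Finset.mul_sum, ← Finset.sum_sub_distrib]
    refine Finset.sum_congr rfl fun x _ => ?_
    simp only [← Finset.mul_sum, mul_left_comm _ (Θ x)]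
    ring
  simp only [e1, e2]
  rw [integral_finsetSum _ fun x _ => hint2 x, integral_finsetSum _ fun x _ => hint x]
  refine Finset.sum_congr rfl fun x _ => ?_
  rw [integral_const_mul, integral_const_mul, stein_tw]

end Vale.Agent.P166F.Gibbs
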