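import Vale.Agent.P166F.Sys
import Vale.Agent.P166F.GG.Gibbs

/-!
The perturbation of a system as a linear field: bounds, measurability and integrability.
-/

namespace Vale.Agent.P166F.GG

open MeasureTheory ProbabilityTheory
open scoped RealInnerProductSpace

set_option linter.unusedSectionVars false

variable {J : Type} [Fintype J] [DecidableEq J] {P : ℕ} (S : Sys J)

/-- Disorder together with the Gaussian coordinates. -/
abbrev Dis (P : ℕ) := S.Ω × EuclideanSpace ℝ (GIdx J P S.D)

/-- Their joint law. -/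
noncomputable abbrev dlaw (P : ℕ) : Measure (Dis S P) :=
  S.law.prod (stdGaussian (EuclideanSpace ℝ (GIdx J P S.D)))

/-- The perturbed log-weight. -/
noncomputable def hw (s : ℝ) (y : CIdx J P → ℝ) (z : Dis S P) (x : S.X) : ℝ :=
  S.logw z.1 x + S.ham s y z.1 z.2 x

/-- The feature vector of a monomial, scaled by coefficients. -/
noncomputable def fvec (c : Mon J P → ℝ) (ω : S.Ω) (x : S.X) :
    EuclideanSpace ℝ (GIdx J P S.D) :=
  WithLp.toLp 2 fun q => c q.1 * ∏ j, ∏ t, S.v ω x j (q.2 j t)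

/-- The observable conjugate to a coefficient. -/
noncomputable def obs (s : ℝ) : CIdx J P → Dis S P → S.X → ℝ
  | Sum.inl e, z, x => S.field z.1 z.2 x e
  | Sum.inr j, z, x => s * ‖S.v z.1 x j‖ ^ 2

variable {S}

lemma avg_eq (s : ℝ) (y : CIdx J P → ℝ) (n : ℕ) (Θ : S.Ω → (Fin n → S.X) → ℝ) :
    S.avg s y n Θ = ∫ z, Gibbs.gav (hw S s y z) (Θ z.1) ∂dlaw S P := by
  refine integral_congr_ae (Filter.Eventually.of_forall fun z => ?_)
  simp only [Gibbs.gav, Gibbs.tw, Finset.sum_div, Gibbs.zsum, hw]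
  exact Finset.sum_congr rfl fun x _ => by ring

lemma inner_gidx (u w : EuclideanSpace ℝ (GIdx J P S.D)) :
    ⟪u, w⟫ = ∑ e, ∑ i : (j : J) → Fin (e.1 j : ℕ) → Fin S.D, u ⟨e, i⟩ * w ⟨e, i⟩ := by
  rw [PiLp.inner_apply, Fintype.sum_sigma]
  simp [mul_comm]

lemma inner_fvec (c c' : Mon J P → ℝ) (ω : S.Ω) (x x' : S.X) :
    ⟪fvec S c ω x, fvec S c' ω x'⟫ =
      ∑ e, c e * c' e * monom (fun j => (e.1 j : ℕ)) fun j => ⟪S.v ω x j, S.v ω x' j⟫ := by
  rw [inner_gidx]
  refine Finset.sum_congr rfl fun e _ => ?_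
  have hj : ∀ j, ⟪S.v ω x j, S.v ω x' j⟫ ^ (e.1 j : ℕ) =
      ∑ i : Fin (e.1 j : ℕ) → Fin S.D, ∏ t, (S.v ω x j (i t) * S.v ω x' j (i t)) := fun j => by
    rw [← Fintype.prod_sum fun _ : Fin (e.1 j : ℕ) => fun d => S.v ω x j d * S.v ω x' j d,
      Finset.prod_const, Finset.card_univ, Fintype.card_fin, PiLp.inner_apply]
    simp [mul_comm]
  simp only [monom, hj]
  rw [Fintype.prod_sum, Finset.mul_sum]
  refine Finset.sum_congr rfl fun i _ => ?_
  simp only [fvec, Finset.prod_mul_distrib]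
  ring

lemma inner_fvec_right (c : Mon J P → ℝ) (z : Dis S P) (x : S.X) :
    ⟪z.2, fvec S c z.1 x⟫ = ∑ e, c e * S.field z.1 z.2 x e := by
  rw [inner_gidx]
  refine Finset.sum_congr rfl fun e _ => ?_
  rw [Sys.field, Finset.mul_sum]
  exact Finset.sum_congr rfl fun i _ => by simp only [fvec]; ring

lemma ham_eq (s : ℝ) (y : CIdx J P → ℝ) (z : Dis S P) (x : S.X) :
    S.ham s y z.1 z.2 x =
      ⟪z.2, fvec S (fun e => y (Sum.inl e)) z.1 x⟫ + s * ∑ j, y (Sum.inr j) * ‖S.v z.1 x j‖ ^ 2 := by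
  rw [inner_fvec_right, Sys.ham]

lemma hw_shift (s : ℝ) (y : CIdx J P → ℝ) (i : CIdx J P) (t : ℝ) (z : Dis S P) (x : S.X) :
    hw S s (y + Pi.single i t) z x = hw S s y z x + t * obs S s i z x := by
  classical
  cases i with
  | inl e =>
    simp only [hw, Sys.ham, obs, Pi.add_apply, Pi.single_apply, add_mul, Finset.sum_add_distrib,
      Sum.inl.injEq, reduceCtorEq, ite_mul, zero_mul, if_false, Finset.sum_const_zero, add_zero,
      Finset.sum_ite_eq', Finset.mem_univ, if_true]
    ring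
  | inr j =>
    simp only [hw, Sys.ham, obs, Pi.add_apply, Pi.single_apply, add_mul, Finset.sum_add_distrib,
      Sum.inr.injEq, reduceCtorEq, ite_mul, zero_mul, if_false, Finset.sum_const_zero, add_zero,
      Finset.sum_ite_eq', Finset.mem_univ, if_true]
    ring

lemma abs_monom_le (e : J → ℕ) {a : J → ℝ} (ha : ∀ j, |a j| ≤ 1) : |monom e a| ≤ 1 := by
  rw [monom, Finset.abs_prod]
  exact Finset.prod_le_one (fun j _ => abs_nonneg _) fun j _ => by
    rw [abs_pow]; exact pow_le_one₀ (abs_nonneg _) (ha j)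

/-- Monomials of numbers in the unit interval move at most by the degree times the change. -/
lemma abs_monom_sub_le (e : J → ℕ) {a b : J → ℝ} (ha : ∀ j, |a j| ≤ 1) (hb : ∀ j, |b j| ≤ 1) :
    |monom e a - monom e b| ≤ ∑ j, (e j : ℝ) * |a j - b j| := by
  have hp : ∀ (n : ℕ) (x y : ℝ), |x| ≤ 1 → |y| ≤ 1 → |x ^ n - y ^ n| ≤ n * |x - y| := by
    intro n x y hx hy
    induction n with
    | zero => simp
    | succ n ih =>
      rw [show x ^ (n + 1) - y ^ (n + 1) = x * (x ^ n - y ^ n) + (x - y) * y ^ n by ring]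
      refine (abs_add_le _ _).trans ?_
      rw [abs_mul, abs_mul, abs_pow]
      push_cast
      nlinarith [mul_le_mul hx ih (abs_nonneg _) zero_le_one,
        mul_le_of_le_one_right (abs_nonneg (x - y)) (pow_le_one₀ (n := n) (abs_nonneg y) hy)]
  unfold monom
  induction (Finset.univ : Finset J) using Finset.induction with
  | empty => simp
  | insert j T hj ih =>
    rw [Finset.prod_insert hj, Finset.prod_insert hj, Finset.sum_insert hj,
      show a j ^ e j * ∏ k ∈ T, a k ^ e k - b j ^ e j * ∏ k ∈ T, b k ^ e k =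
        (a j ^ e j - b j ^ e j) * ∏ k ∈ T, a k ^ e k +
          b j ^ e j * (∏ k ∈ T, a k ^ e k - ∏ k ∈ T, b k ^ e k) by ring]
    refine (abs_add_le _ _).trans ?_
    rw [abs_mul, abs_mul]
    refine add_le_add ((mul_le_of_le_one_right (abs_nonneg _) ?_).trans (hp _ _ _ (ha j) (hb j)))
      ((mul_le_of_le_one_left (abs_nonneg _) ?_).trans ih)
    · rw [Finset.abs_prod]
      exact Finset.prod_le_one (fun k _ => abs_nonneg _) fun k _ => by
        rw [abs_pow]; exact pow_le_one₀ (abs_nonneg _) (ha k)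
    · rw [abs_pow]; exact pow_le_one₀ (abs_nonneg _) (hb j)

lemma abs_gram_le {n : ℕ} (ω : S.Ω) (x : Fin n → S.X) (a b : Fin n) (j : J) :
    |S.gram ω x a b j| ≤ 1 :=
  (abs_real_inner_le_norm _ _).trans
    (mul_le_one₀ (S.norm ω _ j) (norm_nonneg _) (S.norm ω _ j))

lemma measurable_gram {n : ℕ} (x : Fin n → S.X) : Measurable fun ω => S.gram ω x := by
  refine measurable_pi_iff.2 fun a => measurable_pi_iff.2 fun b => measurable_pi_iff.2 fun j => ?_
  exact (S.measV (x a) j).inner (S.measV (x b) j)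

lemma norm_fvec_sq_le (c : Mon J P → ℝ) (ω : S.Ω) (x : S.X) : ‖fvec S c ω x‖ ^ 2 ≤ ∑ e, c e ^ 2 := by
  rw [← real_inner_self_eq_norm_sq, inner_fvec]
  refine Finset.sum_le_sum fun e _ => ?_
  rw [← sq]
  exact mul_le_of_le_one_right (sq_nonneg _) ((le_abs_self _).trans
    (abs_monom_le _ fun j => abs_gram_le ω (n := 1) (fun _ => x) 0 0 j))

lemma measurable_coord (x : S.X) (j : J) (d : Fin S.D) : Measurable fun ω => S.v ω x j d :=
  ((EuclideanSpace.proj (𝕜 := ℝ) d).continuous.measurable).comp (S.measV x j)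

lemma measurable_fvec (c : Mon J P → ℝ) (x : S.X) : Measurable fun ω => fvec S c ω x := by
  refine (PiLp.continuous_toLp 2 _).measurable.comp (measurable_pi_iff.2 fun q => ?_)
  exact (Finset.measurable_prod _ fun j _ => Finset.measurable_prod _ fun t _ =>
    measurable_coord x j (q.2 j t)).const_mul _

lemma measurable_hw (s : ℝ) (y : CIdx J P → ℝ) (x : S.X) :
    Measurable fun z : Dis S P => hw S s y z x := by
  have hd : Measurable fun z : Dis S P => s * ∑ j, y (Sum.inr j) * ‖S.v z.1 x j‖ ^ 2 :=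
    (Finset.measurable_sum _ fun j _ =>
      ((((S.measV x j).comp measurable_fst).norm).pow_const 2).const_mul _).const_mul _
  simp only [hw, ham_eq]
  exact ((S.measW x).comp measurable_fst).add ((measurable_snd.inner
    ((measurable_fvec (S := S) (fun e => y (Sum.inl e)) x).comp measurable_fst)).add hd)

lemma measurable_obs (s : ℝ) (i : CIdx J P) (x : S.X) : Measurable fun z : Dis S P => obs S s i z x := by
  have e : (fun z : Dis S P => obs S s i z x) =
      fun z => hw S s ((0 : CIdx J P → ℝ) + Pi.single i 1) z x - hw S s 0 z x := funext fun z => by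
    rw [hw_shift]; ring
  rw [e]
  exact (measurable_hw s _ x).sub (measurable_hw s 0 x)

/-- A bound for the observable. -/
noncomputable def obsBd (s : ℝ) (z : Dis S P) : ℝ := ‖z.2‖ + |s|

lemma abs_obs_le (s : ℝ) (i : CIdx J P) (z : Dis S P) (x : S.X) : |obs S s i z x| ≤ obsBd s z := by
  classical
  cases i with
  | inl e =>
    have h : S.field z.1 z.2 x e = ⟪z.2, fvec S (Pi.single e 1) z.1 x⟫ := by
      simp [inner_fvec_right, Pi.single_apply, ite_mul]
    have hn : ‖fvec S (Pi.single e 1) z.1 x‖ ≤ 1 := by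
      have h2 := norm_fvec_sq_le (S := S) (Pi.single e 1) z.1 x
      simp [Pi.single_apply] at h2
      nlinarith [norm_nonneg (fvec S (Pi.single e 1) z.1 x)]
    simp only [obs, h, obsBd]
    linarith [(abs_real_inner_le_norm z.2 (fvec S (Pi.single e 1) z.1 x)).trans
      (mul_le_of_le_one_right (norm_nonneg _) hn), abs_nonneg s]
  | inr j =>
    simp only [obs, obsBd, abs_mul, abs_pow, abs_norm]
    nlinarith [norm_nonneg z.2, abs_nonneg s, pow_le_one₀ (n := 2) (norm_nonneg _) (S.norm z.1 x j)]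

lemma integrable_norm_snd : Integrable (fun z : Dis S P => ‖z.2‖) (dlaw S P) :=
  ((IsGaussian.integrable_id (μ := stdGaussian (EuclideanSpace ℝ (GIdx J P S.D)))).norm).comp_snd S.law

lemma integrable_obsBd (s : ℝ) : Integrable (obsBd (S := S) (P := P) s) (dlaw S P) :=
  integrable_norm_snd.fun_add (integrable_const _)

lemma integrable_obsBd_sq (s : ℝ) :
    Integrable (fun z => obsBd (S := S) (P := P) s z ^ 2) (dlaw S P) := by
  have h2 : Integrable (fun z : Dis S P => ‖z.2‖ ^ 2) (dlaw S P) :=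
    ((IsGaussian.memLp_id (stdGaussian (EuclideanSpace ℝ (GIdx J P S.D))) 2 (by simp)).integrable_norm_pow
      (by norm_num)).comp_snd S.law
  refine ((h2.const_mul 2).fun_add (integrable_const (2 * s ^ 2))).mono'
    ((integrable_obsBd s).aestronglyMeasurable.pow 2) (Filter.Eventually.of_forall fun z => ?_)
  rw [Real.norm_eq_abs, abs_pow, sq_abs, obsBd]
  nlinarith [sq_nonneg (‖z.2‖ - |s|), sq_abs s]

lemma integrable_logZ (s : ℝ) (y : CIdx J P → ℝ) :
    Integrable (fun z => Real.log (Gibbs.zsum (hw S s y z))) (dlaw S P) := by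
  have hh : ∀ x, Integrable (fun z => hw S s y z x) (dlaw S P) := fun x => by
    refine ((((S.intW x).norm.comp_fst (stdGaussian (EuclideanSpace ℝ (GIdx J P S.D)))).fun_add
      ((integrable_norm_snd (S := S) (P := P)).mul_const
        (1 + ∑ e, y (Sum.inl e) ^ 2))).fun_add (integrable_const
        (|s| * ∑ j, |y (Sum.inr j)|))).mono' (measurable_hw s y x).aestronglyMeasurable
      (Filter.Eventually.of_forall fun z => ?_)
    rw [Real.norm_eq_abs, hw, ham_eq, ← add_assoc]
    refine (abs_add_le _ _).trans (add_le_add ((abs_add_le _ _).trans (add_le_add ?_ ?_)) ?_)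
    · exact (Real.norm_eq_abs _).symm.le
    · refine (abs_real_inner_le_norm _ _).trans (mul_le_mul_of_nonneg_left ?_ (norm_nonneg _))
      nlinarith [norm_fvec_sq_le (S := S) (fun e => y (Sum.inl e)) z.1 x,
        norm_nonneg (fvec S (fun e => y (Sum.inl e)) z.1 x)]
    · rw [abs_mul]
      refine mul_le_mul_of_nonneg_left ((Finset.abs_sum_le_sum_abs _ _).trans
        (Finset.sum_le_sum fun j _ => ?_)) (abs_nonneg _)
      rw [abs_mul, abs_pow, abs_norm]
      exact mul_le_of_le_one_right (abs_nonneg _) (pow_le_one₀ (norm_nonneg _) (S.norm z.1 x j))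
  refine ((integrable_finsetSum Finset.univ fun x _ => (hh x).norm).fun_add
    (integrable_const (Real.log (Fintype.card S.X)))).mono'
    ((Finset.measurable_sum _ fun x _ => (measurable_hw s y x).exp).log).aestronglyMeasurable
    (Filter.Eventually.of_forall fun z => ?_)
  simp only [Real.norm_eq_abs]
  set M := ∑ x, |hw S s y z x|
  have hM : ∀ x, |hw S s y z x| ≤ M := fun x =>
    Finset.single_le_sum (fun b _ => abs_nonneg (hw S s y z b)) (Finset.mem_univ x)
  have hc : (1 : ℝ) ≤ Fintype.card S.X := by exact_mod_cast Fintype.card_pos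
  have h1 : Gibbs.zsum (hw S s y z) ≤ Fintype.card S.X * Real.exp M := by
    refine (Finset.sum_le_card_nsmul _ _ (Real.exp M) fun x _ =>
      Real.exp_le_exp.2 ((le_abs_self _).trans (hM x))).trans (le_of_eq (by simp))
  have h2 : Real.exp (-M) ≤ Gibbs.zsum (hw S s y z) := by
    refine le_trans (Real.exp_le_exp.2 (neg_le.1 ((neg_le_abs _).trans (hM (Classical.arbitrary S.X)))))
      (Finset.single_le_sum (fun b _ => (Real.exp_pos (hw S s y z b)).le) (Finset.mem_univ _))
  have h3 := Real.log_le_log (Gibbs.zsum_pos _) h1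
  rw [Real.log_mul (by linarith) (Real.exp_pos _).ne', Real.log_exp] at h3
  have h4 := Real.log_le_log (Real.exp_pos _) h2
  rw [Real.log_exp] at h4
  rw [abs_le]
  constructor <;> linarith [Real.log_nonneg hc]

lemma press_eq (s : ℝ) (y : CIdx J P → ℝ) :
    S.press P s y = ∫ z, Real.log (Gibbs.zsum (hw S s y z)) ∂dlaw S P := rfl

lemma dev_eq (s : ℝ) (y : CIdx J P → ℝ) :
    S.dev P s y = ∫ z, |Real.log (Gibbs.zsum (hw S s y z)) - S.press P s y| ∂dlaw S P := rfl

lemma integrable_gav (s : ℝ) (y : CIdx J P → ℝ) {n : ℕ} {Θ : Dis S P → (Fin n → S.X) → ℝ}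
    (hΘ : ∀ x, Measurable fun z => Θ z x) {b : Dis S P → ℝ} (hb : Integrable b (dlaw S P))
    (hle : ∀ z x, |Θ z x| ≤ b z) :
    Integrable (fun z => Gibbs.gav (hw S s y z) (Θ z)) (dlaw S P) := by
  refine hb.mono' ?_ (Filter.Eventually.of_forall fun z => ?_)
  · simp only [Gibbs.gav, Gibbs.tw, Gibbs.zsum]
    exact (Finset.measurable_sum _ fun x _ => ((Finset.measurable_prod _ fun l _ =>
      (measurable_hw s y (x l)).exp).div ((Finset.measurable_sum _ fun a _ =>
        (measurable_hw s y a).exp).pow_const n)).mul (hΘ x)).aestronglyMeasurable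
  · exact (Real.norm_eq_abs _).le.trans (Gibbs.abs_gav_le _ (hle z))

end Vale.Agent.P166F.GG
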