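import Vale.Agent.P166F.GG.Basic

/-!
Fluctuations of the observables at a point where the mean log-sum lies below a quadratic.
-/

namespace Vale.Agent.P166F.GG

open MeasureTheory ProbabilityTheory Filter
open scoped RealInnerProductSpace Topology

set_option linter.unusedSectionVars false

variable {J : Type} [Fintype J] [DecidableEq J] {P : ℕ} {S : Sys J} {s : ℝ} {y : CIdx J P → ℝ}

/-- The mean of an observable. -/
noncomputable def obsMean (S : Sys J) (s : ℝ) (y : CIdx J P → ℝ) (i : CIdx J P) : ℝ :=
  ∫ z, Gibbs.gmean (hw S s y z) (obs S s i z) ∂dlaw S P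

lemma integrable_gmean_of (s : ℝ) (y : CIdx J P → ℝ) {f : Dis S P → S.X → ℝ}
    (hf : ∀ x, Measurable fun z => f z x) {b : Dis S P → ℝ} (hb : Integrable b (dlaw S P))
    (hle : ∀ z x, |f z x| ≤ b z) :
    Integrable (fun z => Gibbs.gmean (hw S s y z) (f z)) (dlaw S P) := by
  have h := integrable_gav s y (n := 1) (Θ := fun z x => f z (x 0)) (fun x => hf (x 0)) hb
    fun z x => hle z (x 0)
  simpa only [Gibbs.gav_marginal] using h

lemma integrable_obs_gmean (s : ℝ) (y : CIdx J P → ℝ) (i : CIdx J P) :
    Integrable (fun z => Gibbs.gmean (hw S s y z) (obs S s i z)) (dlaw S P) :=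
  integrable_gmean_of s y (measurable_obs s i) (integrable_obsBd s) fun z x => abs_obs_le s i z x

lemma measurable_gmean_obs (s : ℝ) (y : CIdx J P → ℝ) (i : CIdx J P) :
    Measurable fun z : Dis S P => Gibbs.gmean (hw S s y z) (obs S s i z) := by
  simp only [Gibbs.gmean, Gibbs.pw, Gibbs.zsum]
  exact Finset.measurable_sum _ fun x _ => (((measurable_hw s y x).exp).div
    (Finset.measurable_sum _ fun a _ => (measurable_hw s y a).exp)).mul (measurable_obs s i x)

lemma integrable_gvar (s : ℝ) (y : CIdx J P → ℝ) (i : CIdx J P) :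
    Integrable (fun z => Gibbs.gvar (hw S s y z) (obs S s i z)) (dlaw S P) := by
  refine ((integrable_obsBd_sq s).const_mul 4).mono' ?_ (Filter.Eventually.of_forall fun z => ?_)
  · simp only [Gibbs.gvar, Gibbs.pw, Gibbs.zsum]
    exact (Finset.measurable_sum _ fun x _ => (((measurable_hw s y x).exp).div
      (Finset.measurable_sum _ fun a _ => (measurable_hw s y a).exp)).mul
      (((measurable_obs s i x).sub (measurable_gmean_obs s y i)).pow_const 2)).aestronglyMeasurable
  · rw [Real.norm_eq_abs, abs_of_nonneg (Gibbs.gvar_nonneg _ _)]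
    exact Gibbs.gvar_le _ _ fun x => abs_obs_le s i z x

lemma press_shift (s : ℝ) (y : CIdx J P → ℝ) (i : CIdx J P) (t : ℝ) :
    S.press P s (y + Pi.single i t) =
      ∫ z, Real.log (Gibbs.zsum fun x => hw S s y z x + t * obs S s i z x) ∂dlaw S P := by
  rw [press_eq]
  refine integral_congr_ae (Eventually.of_forall fun z => ?_)
  simp only [funext fun x => hw_shift (S := S) s y i t z x]

lemma integrable_logZ_shift (s : ℝ) (y : CIdx J P → ℝ) (i : CIdx J P) (t : ℝ) :
    Integrable (fun z => Real.log (Gibbs.zsum fun x => hw S s y z x + t * obs S s i z x))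
      (dlaw S P) := by
  have h := integrable_logZ (S := S) s (y + Pi.single i t)
  refine h.congr (Eventually.of_forall fun z => ?_)
  simp only [funext fun x => hw_shift (S := S) s y i t z x]

lemma press_tangent (s : ℝ) (y : CIdx J P → ℝ) (i : CIdx J P) (t : ℝ) :
    t * obsMean S s y i ≤ S.press P s (y + Pi.single i t) - S.press P s y := by
  rw [press_shift, press_eq, obsMean, ← integral_const_mul,
    ← integral_sub (integrable_logZ_shift s y i t) (integrable_logZ s y)]
  exact integral_mono ((integrable_obs_gmean s y i).const_mul t)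
    ((integrable_logZ_shift s y i t).sub' (integrable_logZ s y))
    fun z => Gibbs.tangent_le _ _ t

/-- The conclusion of a pinned point along one coefficient. -/
structure Pinched (S : Sys J) (s : ℝ) (y : CIdx J P → ℝ) (i : CIdx J P) (θ σ δ : ℝ) : Prop where
  δpos : 0 < δ
  θnn : 0 ≤ θ
  up : ∀ t, |t| ≤ δ → S.press P s (y + Pi.single i t) ≤
    S.press P s y + t * obsMean S s y i + θ * t ^ 2
  dev : ∀ t, |t| ≤ δ → S.dev P s (y + Pi.single i t) ≤ σ

variable {i : CIdx J P} {θ σ δ : ℝ}

lemma integral_gvar_le (h : Pinched S s y i θ σ δ) :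
    ∫ z, Gibbs.gvar (hw S s y z) (obs S s i z) ∂dlaw S P ≤ 2 * θ := by
  set V := fun z => Gibbs.gvar (hw S s y z) (obs S s i z)
  have hV0 : ∀ z, 0 ≤ V z := fun z => Gibbs.gvar_nonneg _ _
  set t : ℕ → ℝ := fun n => δ / ((n : ℝ) + 1) with ht
  have ht0 : Tendsto t atTop (𝓝 0) := by
    have := tendsto_one_div_add_atTop_nhds_zero_nat.const_mul δ
    simp only [mul_zero, mul_one_div] at this
    exact this
  have htpos : ∀ n, 0 < t n := fun n => div_pos h.δpos (by positivity)
  have htle : ∀ n, t n ≤ δ := fun n => div_le_self h.δpos.le (by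
    have : (0 : ℝ) ≤ n := Nat.cast_nonneg n
    linarith)
  have hVm : AEStronglyMeasurable V (dlaw S P) := (integrable_gvar s y i).aestronglyMeasurable
  have hint : ∀ n, Integrable (fun z => V z / (1 + t n ^ 2 * V z)) (dlaw S P) := fun n =>
    (integrable_gvar s y i).mono' (hVm.aemeasurable.div (aemeasurable_const.add
      (hVm.aemeasurable.const_mul _))).aestronglyMeasurable (Eventually.of_forall fun z => by
        have h0 : 0 ≤ t n ^ 2 * V z := mul_nonneg (sq_nonneg _) (hV0 z)
        rw [Real.norm_eq_abs, abs_of_nonneg (div_nonneg (hV0 z) (by linarith))]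
        exact div_le_self (hV0 z) (by linarith))
  have hb : ∀ n, ∫ z, V z / (1 + t n ^ 2 * V z) ∂dlaw S P ≤ 2 * θ := fun n => by
    have habs : |t n| ≤ δ := by rw [abs_of_pos (htpos n)]; exact htle n
    have h1 := h.up (t n) habs
    have h2 := h.up (-t n) (by rwa [abs_neg])
    rw [press_shift] at h1 h2
    have hi : ∫ z, t n ^ 2 * (V z / (1 + t n ^ 2 * V z)) ∂dlaw S P ≤
        ∫ z, (Real.log (Gibbs.zsum fun x => hw S s y z x + t n * obs S s i z x) +
          Real.log (Gibbs.zsum fun x => hw S s y z x + -t n * obs S s i z x) -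
            2 * Real.log (Gibbs.zsum (hw S s y z))) ∂dlaw S P :=
      integral_mono ((hint n).const_mul _)
        (((integrable_logZ_shift s y i _).fun_add (integrable_logZ_shift s y i _)).sub'
          ((integrable_logZ s y).const_mul 2))
        fun z => le_trans (le_of_eq (by ring)) (Gibbs.second_diff_ge _ _ (t n))
    rw [integral_const_mul, integral_sub ((integrable_logZ_shift s y i _).fun_add
      (integrable_logZ_shift s y i _)) ((integrable_logZ s y).const_mul 2),
      integral_add (integrable_logZ_shift s y i _) (integrable_logZ_shift s y i _),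
      integral_const_mul, ← press_eq] at hi
    refine le_of_mul_le_mul_left (a := t n ^ 2) ?_ (pow_pos (htpos n) 2)
    linarith
  refine le_of_tendsto (tendsto_integral_of_dominated_convergence V (fun n => (hint n).aestronglyMeasurable)
    (integrable_gvar s y i) (fun n => Eventually.of_forall fun z => ?_)
    (Eventually.of_forall fun z => ?_)) (Eventually.of_forall hb)
  · have h0 : 0 ≤ t n ^ 2 * V z := mul_nonneg (sq_nonneg _) (hV0 z)
    rw [Real.norm_eq_abs, abs_of_nonneg (div_nonneg (hV0 z) (by linarith))]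
    exact div_le_self (hV0 z) (by linarith)
  · have h1 : Tendsto (fun n => 1 + t n ^ 2 * V z) atTop (𝓝 (1 + 0 ^ 2 * V z)) :=
      tendsto_const_nhds.add ((ht0.pow 2).mul_const _)
    have h2 := (tendsto_const_nhds (x := V z)).div h1 (by simp)
    simpa [Pi.div_def] using h2

lemma thermal_le (h : Pinched S s y i θ σ δ) :
    ∫ z, Gibbs.gmean (hw S s y z) (fun x => |obs S s i z x - Gibbs.gmean (hw S s y z) (obs S s i z)|)
      ∂dlaw S P ≤ Real.sqrt (2 * θ) := by
  set q := Real.sqrt (2 * θ) with hq
  have hq0 : 0 ≤ q := Real.sqrt_nonneg _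
  have hq2 : q ^ 2 = 2 * θ := Real.sq_sqrt (by linarith [h.θnn])
  have hV := integral_gvar_le h
  have hi := integrable_gmean_of (S := S) s y
    (f := fun z x => |obs S s i z x - Gibbs.gmean (hw S s y z) (obs S s i z)|)
    (fun x => ((measurable_obs s i x).sub (measurable_gmean_obs s y i)).abs)
    (b := fun z => 2 * obsBd (S := S) (P := P) s z) ((integrable_obsBd s).const_mul 2) fun z x => by
      have h1 := Gibbs.abs_gav_le (n := 1) (hw S s y z) (Θ := fun a => obs S s i z (a 0))
        fun a => abs_obs_le s i z (a 0)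
      rw [Gibbs.gav_marginal] at h1
      rw [abs_abs]
      linarith [(abs_sub (obs S s i z x) (Gibbs.gmean (hw S s y z) (obs S s i z))), abs_obs_le s i z x]
  refine le_of_forall_pos_le_add fun ε hε => ?_
  set c := q + ε with hc
  have hc0 : 0 < c := by linarith
  have hpt : ∀ z, Gibbs.gmean (hw S s y z)
      (fun x => |obs S s i z x - Gibbs.gmean (hw S s y z) (obs S s i z)|) ≤
        Gibbs.gvar (hw S s y z) (obs S s i z) / (2 * c) + c / 2 := fun z => by
    calc Gibbs.gmean (hw S s y z) (fun x => |obs S s i z x - Gibbs.gmean (hw S s y z) (obs S s i z)|)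
        ≤ ∑ x, Gibbs.pw (hw S s y z) x *
            ((obs S s i z x - Gibbs.gmean (hw S s y z) (obs S s i z)) ^ 2 / (2 * c) + c / 2) := by
          refine Finset.sum_le_sum fun x _ => mul_le_mul_of_nonneg_left ?_ (Gibbs.pw_pos _ x).le
          set d := obs S s i z x - Gibbs.gmean (hw S s y z) (obs S s i z)
          rw [div_add_div _ _ (by positivity) two_ne_zero, le_div_iff₀ (by positivity), ← sq_abs d]
          nlinarith [sq_nonneg (|d| - c)]
      _ = _ := by
          simp only [mul_add, Finset.sum_add_distrib, ← Finset.sum_mul, Gibbs.sum_pw, one_mul,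
            mul_div_assoc', ← Finset.sum_div, Gibbs.gvar]
  have h1 := integral_mono hi (((integrable_gvar s y i).div_const _).fun_add (integrable_const _)) hpt
  rw [integral_add ((integrable_gvar s y i).div_const _) (integrable_const _), integral_div] at h1
  simp only [integral_const, probReal_univ, one_smul] at h1
  refine h1.trans ?_
  have h2 : (∫ z, Gibbs.gvar (hw S s y z) (obs S s i z) ∂dlaw S P) / (2 * c) ≤ c / 2 := by
    rw [div_le_iff₀ (by positivity)]
    nlinarith
  linarith

lemma disorder_le (h : Pinched S s y i θ σ δ) :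
    ∫ z, |Gibbs.gmean (hw S s y z) (obs S s i z) - obsMean S s y i| ∂dlaw S P ≤
      θ * δ + 3 * σ / δ := by
  set L := fun (t : ℝ) z => Real.log (Gibbs.zsum fun x => hw S s y z x + t * obs S s i z x) -
    S.press P s (y + Pi.single i t) with hL
  set L0 := fun z => Real.log (Gibbs.zsum (hw S s y z)) - S.press P s y with hL0
  have hd : 0 < δ := h.δpos
  have hLi : ∀ t, Integrable (L t) (dlaw S P) := fun t =>
    (integrable_logZ_shift s y i t).sub' (integrable_const _)
  have hL0i : Integrable L0 (dlaw S P) := (integrable_logZ s y).sub' (integrable_const _)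
  have hbd : ∀ t, |t| ≤ δ → ∫ z, |L t z| ∂dlaw S P ≤ σ := fun t ht => by
    refine le_trans (le_of_eq ?_) (h.dev t ht)
    rw [dev_eq]
    refine integral_congr_ae (Eventually.of_forall fun z => ?_)
    simp only [hL, funext fun x => hw_shift (S := S) s y i t z x]
  have hb0 : ∫ z, |L0 z| ∂dlaw S P ≤ σ := by
    have h1 := h.dev 0 (by simpa using hd.le)
    rw [Pi.single_zero, add_zero] at h1
    exact h1
  have hpt : ∀ z, δ * |Gibbs.gmean (hw S s y z) (obs S s i z) - obsMean S s y i| ≤
      θ * δ ^ 2 + (|L δ z| + |L (-δ) z| + |L0 z|) := fun z => by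
    have a1 := Gibbs.tangent_le (hw S s y z) (obs S s i z) δ
    have a2 := Gibbs.tangent_le (hw S s y z) (obs S s i z) (-δ)
    have b1 := h.up δ (abs_of_pos hd).le
    have b2 := h.up (-δ) (by rw [abs_neg]; exact (abs_of_pos hd).le)
    have c1 := le_abs_self (L δ z)
    have c2 := le_abs_self (L (-δ) z)
    have c0 := neg_le_abs (L0 z)
    simp only [hL, hL0] at c1 c2 c0 ⊢
    have e1 := abs_nonneg (Real.log (Gibbs.zsum fun x => hw S s y z x + δ * obs S s i z x) -
      S.press P s (y + Pi.single i δ))
    have e2 := abs_nonneg (Real.log (Gibbs.zsum fun x => hw S s y z x + -δ * obs S s i z x) -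
      S.press P s (y + Pi.single i (-δ)))
    rcases abs_cases (Gibbs.gmean (hw S s y z) (obs S s i z) - obsMean S s y i) with ⟨e, -⟩ | ⟨e, -⟩ <;>
      rw [e] <;> nlinarith
  have h1 := integral_mono
    (((integrable_obs_gmean s y i).sub' (integrable_const (obsMean S s y i))).abs.const_mul δ)
    ((integrable_const (θ * δ ^ 2)).fun_add
      (((hLi δ).abs.fun_add (hLi (-δ)).abs).fun_add hL0i.abs)) hpt
  rw [integral_const_mul, integral_add (integrable_const _)
      (((hLi δ).abs.fun_add (hLi (-δ)).abs).fun_add hL0i.abs),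
    integral_add ((hLi δ).abs.fun_add (hLi (-δ)).abs) hL0i.abs,
    integral_add (hLi δ).abs (hLi (-δ)).abs] at h1
  simp only [integral_const, probReal_univ, one_smul] at h1
  have h3 := hbd δ (abs_of_pos hd).le
  have h4 := hbd (-δ) (by rw [abs_neg]; exact (abs_of_pos hd).le)
  rw [show θ * δ + 3 * σ / δ = (θ * δ ^ 2 + 3 * σ) / δ by field_simp, le_div_iff₀ hd]
  linarith

/-- Total fluctuation of the observable. -/
theorem fluct_le (h : Pinched S s y i θ σ δ) :
    ∫ z, Gibbs.gmean (hw S s y z) (fun x => |obs S s i z x - obsMean S s y i|) ∂dlaw S P ≤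
      Real.sqrt (2 * θ) + θ * δ + 3 * σ / δ := by
  have i1 := integrable_gmean_of (S := S) s y (f := fun z x => |obs S s i z x - obsMean S s y i|)
    (fun x => ((measurable_obs s i x).sub_const _).abs)
    ((integrable_obsBd s).fun_add (integrable_const |obsMean S s y i|)) fun z x => by
      rw [abs_abs]; exact (abs_sub _ _).trans (add_le_add (abs_obs_le s i z x) le_rfl)
  have i2 := integrable_gmean_of (S := S) s y
    (f := fun z x => |obs S s i z x - Gibbs.gmean (hw S s y z) (obs S s i z)|)
    (fun x => ((measurable_obs s i x).sub (measurable_gmean_obs s y i)).abs)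
    (b := fun z => 2 * obsBd (S := S) (P := P) s z) ((integrable_obsBd s).const_mul 2) fun z x => by
      have h1 := Gibbs.abs_gav_le (n := 1) (hw S s y z) (Θ := fun a => obs S s i z (a 0))
        fun a => abs_obs_le s i z (a 0)
      rw [Gibbs.gav_marginal] at h1
      rw [abs_abs]
      linarith [(abs_sub (obs S s i z x) (Gibbs.gmean (hw S s y z) (obs S s i z))), abs_obs_le s i z x]
  have i3 := ((integrable_obs_gmean (S := S) s y i).sub' (integrable_const (obsMean S s y i))).abs
  have h1 := integral_mono i1 (i2.fun_add i3) fun z => by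
    calc Gibbs.gmean (hw S s y z) (fun x => |obs S s i z x - obsMean S s y i|)
        ≤ ∑ x, Gibbs.pw (hw S s y z) x * (|obs S s i z x - Gibbs.gmean (hw S s y z) (obs S s i z)| +
            |Gibbs.gmean (hw S s y z) (obs S s i z) - obsMean S s y i|) :=
          Finset.sum_le_sum fun x _ =>
            mul_le_mul_of_nonneg_left (abs_sub_le _ _ _) (Gibbs.pw_pos _ x).le
      _ = _ := by
          simp only [mul_add, Finset.sum_add_distrib, ← Finset.sum_mul, Gibbs.sum_pw, one_mul]
          rfl
  rw [integral_add i2 i3] at h1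
  linarith [thermal_le h, disorder_le h]

end Vale.Agent.P166F.GG
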